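import Mathlib

/-! One step of the level recursion in centred variables. -/

open Complex
open scoped ComplexConjugate

namespace Vale.Agent.P139Z.AlgW

/-- One step of the recursion in the centred variables. -/
structure St (a : ℂ) (b Z : ℝ) (p y p' y' : ℂ) : Prop where
  hy : y' = p + a * y
  hp : p' = a * p + (b : ℂ) ^ 2 * y - I * Z * y'

theorem St.re_eq {a : ℂ} {b Z : ℝ} {p y p' y' : ℂ} (h : St a b Z p y p' y') :
    (conj y' * p').re = (‖a‖ ^ 2 + b ^ 2) * (conj y * p).re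
      + a.re * (‖p‖ ^ 2 + b ^ 2 * ‖y‖ ^ 2) := by
  rw [h.hp, h.hy]
  simp only [Complex.sq_norm, Complex.normSq_apply]
  simp only [mul_re, mul_im, add_re, add_im, sub_re, sub_im, conj_re, conj_im, I_re, I_im,
    ofReal_re, ofReal_im, pow_two]
  ring

theorem St.im_eq {a : ℂ} {b Z : ℝ} {p y p' y' : ℂ} (h : St a b Z p y p' y') :
    (conj y' * p').im + Z * ‖y'‖ ^ 2 = (‖a‖ ^ 2 - b ^ 2) * (conj y * p).im
      + a.im * (‖p‖ ^ 2 - b ^ 2 * ‖y‖ ^ 2) := by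
  rw [h.hp, h.hy]
  simp only [Complex.sq_norm, Complex.normSq_apply]
  simp only [mul_re, mul_im, add_re, add_im, sub_re, sub_im, conj_re, conj_im, I_re, I_im,
    ofReal_re, ofReal_im, pow_two]
  ring

theorem sq_im_le (a : ℂ) : a.im ^ 2 ≤ ‖a‖ ^ 2 := by
  rw [Complex.sq_norm, Complex.normSq_apply]; nlinarith [mul_self_nonneg a.re]

theorem norm_le_of {a : ℂ} {w : ℝ} (hw : 399 ≤ w) (hi : |a.im| = w) (hr : |a.re| ≤ 5 / 2) :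
    ‖a‖ ≤ 1.007 * w := by
  have := Complex.norm_le_abs_re_add_abs_im a
  linarith

theorem im_le (p y : ℂ) : (conj y * p).im ≤ ‖p‖ * ‖y‖ := by
  have h := Complex.im_le_norm (conj y * p)
  rw [norm_mul, Complex.norm_conj] at h
  linarith [mul_comm ‖p‖ ‖y‖]

/-- The disc condition from the half-plane condition at the next level. -/
theorem St.disc {a : ℂ} {b Z w : ℝ} {p y p' y' : ℂ} (h : St a b Z p y p' y') (hi : a.im = -w)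
    (hu : 0 ≤ (conj y' * p').im + Z * ‖y'‖ ^ 2) :
    w * ‖p‖ ^ 2 ≤ (‖a‖ ^ 2 - b ^ 2) * (conj y * p).im + w * (b ^ 2 * ‖y‖ ^ 2) := by
  rw [h.im_eq, hi] at hu
  linarith

theorem gap {a : ℂ} {b Z w : ℝ} (hi : a.im = -w) (hw : 400 ≤ w) (hb0 : 0 ≤ b) (hb : b ≤ 59 / 2)
    (hZ : 2.7 ≤ Z) : 0 < ‖a‖ ^ 2 - b ^ 2 ∧ w * b ^ 2 ≤ (‖a‖ ^ 2 - b ^ 2) * Z := by
  have h1 : w ^ 2 ≤ ‖a‖ ^ 2 := by have := sq_im_le a; rw [hi] at this; linarith [neg_sq w]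
  have h2 : b ^ 2 ≤ 870.25 := by nlinarith
  have h3 : 400 * w ≤ w ^ 2 := by nlinarith
  have h4 : 397 * w ≤ ‖a‖ ^ 2 - b ^ 2 := by linarith
  refine ⟨by linarith, ?_⟩
  have h5 : w * b ^ 2 ≤ w * 870.25 := mul_le_mul_of_nonneg_left h2 (by linarith)
  have h6 : 397 * w * 2.7 ≤ (‖a‖ ^ 2 - b ^ 2) * Z :=
    mul_le_mul h4 hZ (by norm_num) (by linarith)
  linarith

/-- The half-plane condition propagates backward. -/
theorem St.up {a : ℂ} {b Z w : ℝ} {p y p' y' : ℂ} (h : St a b Z p y p' y') (hi : a.im = -w)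
    (hw : 400 ≤ w) (hb0 : 0 ≤ b) (hb : b ≤ 59 / 2) (hZ : 2.7 ≤ Z)
    (hu : 0 ≤ (conj y' * p').im + Z * ‖y'‖ ^ 2) : 0 ≤ (conj y * p).im + Z * ‖y‖ ^ 2 := by
  have hd := h.disc hi hu
  obtain ⟨g1, g2⟩ := gap hi hw hb0 hb hZ
  have h1 : 0 ≤ w * ‖p‖ ^ 2 := by positivity
  have h2 : w * b ^ 2 * ‖y‖ ^ 2 ≤ (‖a‖ ^ 2 - b ^ 2) * Z * ‖y‖ ^ 2 :=
    mul_le_mul_of_nonneg_right g2 (by positivity)
  have h3 : 0 ≤ (‖a‖ ^ 2 - b ^ 2) * ((conj y * p).im + Z * ‖y‖ ^ 2) := by nlinarith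
  exact nonneg_of_mul_nonneg_right h3 g1

theorem sq_norm_le {a : ℂ} {w : ℝ} (hi : a.im = -w) (hr : |a.re| ≤ 5 / 2) :
    ‖a‖ ^ 2 ≤ w ^ 2 + 6.25 := by
  rw [Complex.sq_norm, Complex.normSq_apply, hi]
  have := abs_le.1 hr
  nlinarith

theorem shift_sq (p y : ℂ) (Z : ℝ) : ‖p + I * Z * y‖ ^ 2
    = ‖p‖ ^ 2 + 2 * Z * ((conj y * p).im + Z * ‖y‖ ^ 2) - Z ^ 2 * ‖y‖ ^ 2 := by
  simp only [Complex.sq_norm, Complex.normSq_apply]
  simp only [mul_re, mul_im, add_re, add_im, conj_re, conj_im, I_re, I_im, ofReal_re, ofReal_im]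
  ring

/-- The shifted disc lies in a disc through the origin. -/
theorem shifted {a p y : ℂ} {b Z w : ℝ} (hi : a.im = -w) (hr : |a.re| ≤ 5 / 2) (hw : 400 ≤ w)
    (hb0 : 0 ≤ b) (hb : b ≤ 59 / 2) (hZ : 2.7 ≤ Z) (hZ' : Z ≤ 2.71)
    (hu : 0 ≤ (conj y * p).im + Z * ‖y‖ ^ 2)
    (hd : w * ‖p‖ ^ 2 ≤ (‖a‖ ^ 2 - b ^ 2) * (conj y * p).im + w * (b ^ 2 * ‖y‖ ^ 2)) :
    ‖p + I * Z * y‖ ^ 2 ≤ 1.014 * w * ((conj y * p).im + Z * ‖y‖ ^ 2) := by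
  obtain ⟨g1, g2⟩ := gap hi hw hb0 hb hZ
  have g3 := sq_norm_le hi hr
  have hw0 : 0 < w := by linarith
  rw [shift_sq]
  obtain ⟨J, hJ⟩ : ∃ J, J = (conj y * p).im + Z * ‖y‖ ^ 2 := ⟨_, rfl⟩
  have hJ' : (conj y * p).im = J - Z * ‖y‖ ^ 2 := by rw [hJ]; ring
  rw [← hJ] at hu ⊢
  rw [hJ'] at hd
  have h2 : w * b ^ 2 * ‖y‖ ^ 2 ≤ (‖a‖ ^ 2 - b ^ 2) * Z * ‖y‖ ^ 2 :=
    mul_le_mul_of_nonneg_right g2 (by positivity)
  have h3 : w * ‖p‖ ^ 2 ≤ (‖a‖ ^ 2 - b ^ 2) * J := by nlinarith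
  have h4 : ‖a‖ ^ 2 - b ^ 2 + 2 * Z * w ≤ 1.014 * w * w := by nlinarith [sq_nonneg b]
  have h5 : (‖a‖ ^ 2 - b ^ 2 + 2 * Z * w) * J ≤ 1.014 * w * w * J :=
    mul_le_mul_of_nonneg_right h4 hu
  have h6 : 0 ≤ w * (Z ^ 2 * ‖y‖ ^ 2) := by positivity
  have h7 : w * (‖p‖ ^ 2 + 2 * Z * J - Z ^ 2 * ‖y‖ ^ 2) ≤ w * (1.014 * w * J) := by nlinarith
  exact le_of_mul_le_mul_left h7 hw0

theorem real_bound {α β w s t q J : ℝ} (hw : 400 ≤ w) (g3 : α ^ 2 ≤ w ^ 2 + 6.25) (g5 : w ≤ α)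
    (hb0 : 0 ≤ β) (hb2 : β ≤ 0.0055 * w ^ 2) (tn : 0 ≤ t) (hJ : J ≤ s * t)
    (ht : α * s ≤ q + β * t)
    (hs : q ^ 2 ≤ 1.014 * w * ((α ^ 2 - β) * J + -w * (s ^ 2 - β * t ^ 2))) :
    s ≤ 0.52 * w * t := by
  by_contra hc
  push Not at hc
  have hw0 : 0 < w := by linarith
  have un : 0 ≤ w * t := by positivity
  have sp : 0 < s := by linarith
  have u1 : w * t ≤ 1.9231 * s := by linarith
  have k1 : β * t ≤ 0.0055 * w ^ 2 * t := mul_le_mul_of_nonneg_right hb2 tn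
  have k2 : w * (w * t) ≤ w * (1.9231 * s) := mul_le_mul_of_nonneg_left u1 hw0.le
  have k3 : w * s ≤ α * s := mul_le_mul_of_nonneg_right g5 sp.le
  have ws : 0 < w * s := by positivity
  have k4 : 0.989 * (w * s) ≤ q := by linarith
  have k5 : (0.989 * (w * s)) ^ 2 ≤ q ^ 2 := pow_le_pow_left₀ (by positivity) k4 2
  have w2 : 400 * 400 ≤ w ^ 2 := by
    have := pow_le_pow_left₀ (by norm_num) hw 2
    linarith
  have g4 : w ^ 2 ≤ α ^ 2 := pow_le_pow_left₀ hw0.le g5 2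
  have k6 : (α ^ 2 - β) * J ≤ 1.0001 * w ^ 2 * (s * t) := by
    have e1 : 0 ≤ α ^ 2 - β := by linarith
    have e2 : α ^ 2 - β ≤ 1.0001 * w ^ 2 := by linarith
    calc (α ^ 2 - β) * J ≤ (α ^ 2 - β) * (s * t) := mul_le_mul_of_nonneg_left hJ e1
      _ ≤ 1.0001 * w ^ 2 * (s * t) := mul_le_mul_of_nonneg_right e2 (by positivity)
  have k7 : w ^ 2 * (s * t) ≤ 1.9231 * (w * s ^ 2) := by
    have := mul_le_mul_of_nonneg_left u1 ws.le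
    linarith
  have k8 : β * t ^ 2 ≤ 0.0204 * s ^ 2 := by
    have e1 : (w * t) ^ 2 ≤ (1.9231 * s) ^ 2 := pow_le_pow_left₀ un u1 2
    have e2 : β * t ^ 2 ≤ 0.0055 * w ^ 2 * t ^ 2 := mul_le_mul_of_nonneg_right hb2 (by positivity)
    have e3 := sq_nonneg s
    linarith
  have k9 : w * (β * t ^ 2) ≤ w * (0.0204 * s ^ 2) := mul_le_mul_of_nonneg_left k8 hw0.le
  have wss : 0 < w * s ^ 2 := by positivity
  have k10 : (α ^ 2 - β) * J + -w * (s ^ 2 - β * t ^ 2) ≤ 0.944 * (w * s ^ 2) := by linarith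
  have k11 := mul_le_mul_of_nonneg_left k10 (show 0 ≤ 1.014 * w by positivity)
  have k12 : 0 < w * (w * s ^ 2) := by positivity
  linarith

/-- The bound on the ratio one level below the shifted disc. -/
theorem St.bound {a : ℂ} {b Z w : ℝ} {p y p' y' : ℂ} (h : St a b Z p y p' y') (hi : a.im = -w)
    (hr : |a.re| ≤ 5 / 2) (hw : 400 ≤ w) (hb0 : 0 ≤ b) (hb : b ≤ 59 / 2)
    (hs : ‖p' + I * Z * y'‖ ^ 2 ≤ 1.014 * w * ((conj y' * p').im + Z * ‖y'‖ ^ 2)) :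
    ‖p‖ ≤ 0.52 * w * ‖y‖ := by
  have hq : p' + I * Z * y' = a * p + (b : ℂ) ^ 2 * y := by rw [h.hp]; ring
  rw [h.im_eq, hi, hq] at hs
  have g4 : w ^ 2 ≤ ‖a‖ ^ 2 := by have := sq_im_le a; rw [hi] at this; linarith [neg_sq w]
  have g5 : w ≤ ‖a‖ := le_trans (le_abs_self w) (abs_le_of_sq_le_sq g4 (norm_nonneg a))
  have hb2 : b ^ 2 ≤ 0.0055 * w ^ 2 := by nlinarith
  have ht : ‖a‖ * ‖p‖ ≤ ‖a * p + (b : ℂ) ^ 2 * y‖ + b ^ 2 * ‖y‖ := by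
    have h1 := norm_sub_le (a * p + (b : ℂ) ^ 2 * y) ((b : ℂ) ^ 2 * y)
    rw [add_sub_cancel_right, norm_mul, norm_mul, norm_pow, Complex.norm_real, Real.norm_eq_abs,
      sq_abs] at h1
    exact h1
  exact real_bound hw (sq_norm_le hi hr) g5 (sq_nonneg b) hb2 (norm_nonneg _)
    (im_le p y) ht hs

/-- Forward norm bounds. -/
theorem St.fwd {a : ℂ} {b Z w M s t s' t' : ℝ} {p y p' y' : ℂ} (h : St a b Z p y p' y')
    (hi : |a.im| = w) (hr : |a.re| ≤ 5 / 2) (hw : 399 ≤ w) (hb0 : 0 ≤ b) (hb : b ≤ 59 / 2)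
    (hZ : 0 ≤ Z) (hZ' : Z ≤ 2.71) (hM : 0 ≤ M)
    (h1 : ‖p‖ ≤ s * w * M) (h2 : ‖y‖ ≤ t * M) (ht' : s + 1.007 * t ≤ t')
    (hs' : 1.007 * s + 0.0055 * t + 0.007 * t' ≤ s') :
    ‖p'‖ ≤ s' * w * (w * M) ∧ ‖y'‖ ≤ t' * (w * M) := by
  have ha := norm_le_of hw hi hr
  have hw0 : 0 < w := by linarith
  have wM : 0 ≤ w * M := by positivity
  have hy : ‖y'‖ ≤ t' * (w * M) := by
    rw [h.hy]
    have e1 : ‖a * y‖ ≤ 1.007 * w * (t * M) := by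
      rw [norm_mul]; exact mul_le_mul ha h2 (norm_nonneg _) (by positivity)
    have e2 := norm_add_le p (a * y)
    have e3 := mul_le_mul_of_nonneg_right ht' wM
    nlinarith
  refine ⟨?_, hy⟩
  have hb2 : b ^ 2 ≤ 0.0055 * w ^ 2 := by nlinarith
  have e1 : ‖a * p‖ ≤ 1.007 * w * (s * w * M) := by
    rw [norm_mul]; exact mul_le_mul ha h1 (norm_nonneg _) (by positivity)
  have e2 : ‖(b : ℂ) ^ 2 * y‖ ≤ 0.0055 * w ^ 2 * (t * M) := by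
    rw [norm_mul, norm_pow, Complex.norm_real, Real.norm_eq_abs, sq_abs]
    exact mul_le_mul hb2 h2 (norm_nonneg _) (by positivity)
  have e3 : ‖I * Z * y'‖ ≤ 0.007 * w * (t' * (w * M)) := by
    rw [norm_mul, norm_mul, Complex.norm_I, one_mul, Complex.norm_real, Real.norm_eq_abs,
      abs_of_nonneg hZ]
    exact mul_le_mul (by linarith) hy (norm_nonneg _) (by positivity)
  have e4 : ‖p'‖ ≤ ‖a * p‖ + ‖(b : ℂ) ^ 2 * y‖ + ‖I * Z * y'‖ := by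
    conv_lhs => rw [h.hp]
    exact (norm_sub_le _ _).trans (by gcongr; exact norm_add_le _ _)
  have e5 := mul_le_mul_of_nonneg_right hs' (show 0 ≤ w * (w * M) by positivity)
  nlinarith

/-- Backward bound on the real part. -/
theorem St.bwd {a : ℂ} {b Z w M s t x x' r : ℝ} {p y p' y' : ℂ} (h : St a b Z p y p' y')
    (hi : |a.im| = w) (hw : 399 ≤ w) (hb0 : 0 ≤ b) (hb : b ≤ 59 / 2) (hr : -r ≤ a.re)
    (hr0 : 0 ≤ r) (hx' : 0 ≤ x') (h1 : ‖p‖ ≤ s * w * M) (h2 : ‖y‖ ≤ t * M)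
    (hX : (conj y' * p').re ≤ x' * (w * M) ^ 2) (hx : x' + r * (s ^ 2 + 0.0055 * t ^ 2) ≤ x) :
    (conj y * p).re ≤ x * M ^ 2 := by
  have hw0 : 0 < w := by linarith
  have hx0 : 0 ≤ x := le_trans (by positivity) hx
  rcases le_or_gt (conj y * p).re 0 with h0 | h0
  · exact h0.trans (by positivity)
  rw [h.re_eq] at hX
  have g4 : w ^ 2 ≤ ‖a‖ ^ 2 := by have := sq_im_le a; rw [← hi, sq_abs]; exact this
  have hb2 : b ^ 2 ≤ 0.0055 * w ^ 2 := by nlinarith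
  have e1 : ‖p‖ ^ 2 ≤ (s * w * M) ^ 2 := pow_le_pow_left₀ (norm_nonneg _) h1 2
  have e2 : ‖y‖ ^ 2 ≤ (t * M) ^ 2 := pow_le_pow_left₀ (norm_nonneg _) h2 2
  have e3 : b ^ 2 * ‖y‖ ^ 2 ≤ 0.0055 * w ^ 2 * (t * M) ^ 2 :=
    mul_le_mul hb2 e2 (by positivity) (by positivity)
  have e4 : ‖p‖ ^ 2 + b ^ 2 * ‖y‖ ^ 2 ≤ (s ^ 2 + 0.0055 * t ^ 2) * (w * M) ^ 2 := by nlinarith
  have e5 : -r * (‖p‖ ^ 2 + b ^ 2 * ‖y‖ ^ 2) ≤ a.re * (‖p‖ ^ 2 + b ^ 2 * ‖y‖ ^ 2) :=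
    mul_le_mul_of_nonneg_right hr (by positivity)
  have e6 := mul_le_mul_of_nonneg_left e4 hr0
  have e7 : w ^ 2 * (conj y * p).re ≤ (‖a‖ ^ 2 + b ^ 2) * (conj y * p).re :=
    mul_le_mul_of_nonneg_right (by nlinarith [sq_nonneg b]) h0.le
  have e8 := mul_le_mul_of_nonneg_right hx (sq_nonneg (w * M))
  have e9 : w ^ 2 * (conj y * p).re ≤ w ^ 2 * (x * M ^ 2) := by nlinarith
  exact le_of_mul_le_mul_left e9 (by positivity)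

end Vale.Agent.P139Z.AlgW
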